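import Vale.Agent.Lib.P099.BVArcs
import Vale.Agent.Lib.P099.BVMinkowski

/-!
# P099: billiards in irrational triangles, bounded variation in the direction

For every irrational triangle, a measurable eigenfunction `F` of the billiard flow whose
mean variation under the rotation of all the directions by an angle `δ` is at most `C |δ|`
(bounded variation in the direction) is almost everywhere constant, and it is almost
everywhere zero unless the frequency is zero.  No regularity in the position is assumed,
and the function need not be a finite sum of products.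

As consequences, a measurable invariant set of finite angular perimeter (the measure of
its symmetric difference with its image under the rotation of the directions by `δ` is at
most `C |δ|`) has measure `0` or `1`.  This holds in particular for every invariant set
whose topological boundary has finite upper Minkowski content, and for every invariant
set whose slices of directions above the points of the table are unions of at most `N`
arcs.
-/

namespace Vale.Agent.Results.P099.BoundedVariationEigenfunctions

open MeasureTheory Vale.Agent.Lib.P099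
open scoped symmDiff

/-- Let `T` be an irrational triangle with table `Q = T.table`, billiard flow
`Φ_t = T.flow t` and invariant probability measure `μ = T.mu`.

(1) Let `F` be a measurable complex function on the phase space such that
`∫ |F (x, θ + δ) - F (x, θ)| dμ ≤ C |δ|` for every real `δ`, and let `lam` be real.  If for
every real `t` the equality `F (Φ_t p) = exp (i lam t) * F p` holds for almost every `p`,
then `F` is almost everywhere equal to a constant `c`, and `c = 0` unless `lam = 0`.

(2) Let `S` be a measurable set of the phase space such that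
`μ ({(x, θ) | (x, θ + δ) ∈ S} ∆ S) ≤ C |δ|` for every real `δ`.  If
`μ (Φ_t⁻¹ S ∆ S) = 0` for every real `t`, then `μ S` is `0` or `1`.

(3) Let `S` be a measurable set of the phase space such that the closed
`δ`-neighbourhood of the topological boundary of `S` has measure at most `C δ` for every
`δ > 0`.  If `μ (Φ_t⁻¹ S ∆ S) = 0` for every real `t`, then `μ S` is `0` or `1`.

(4) Let `S` be a measurable set of the phase space such that, for every point `x` of the
table, the set of the directions `θ` with `(x, θ) ∈ S` is a union of at most `N` closed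
arcs (the images in `Dir` of `N` intervals `[a m, b m]` of the real line).  If
`μ (Φ_t⁻¹ S ∆ S) = 0` for every real `t`, then `μ S` is `0` or `1`. -/
theorem result (T : Triangle) (hT : T.IsIrrational) :
    (∀ (F : ℂ × Dir → ℂ) (lam C : ℝ), Measurable F →
      (∀ δ : ℝ, ∫⁻ p, ‖F (p.1, p.2 + (δ : Dir)) - F p‖ₑ ∂T.mu ≤ ENNReal.ofReal (C * |δ|)) →
      (∀ t : ℝ, (fun p => F (T.flow t p)) =ᵐ[T.mu]
        fun p => Complex.exp (lam * t * Complex.I) * F p) →
      ∃ c : ℂ, (F =ᵐ[T.mu] fun _ => c) ∧ (lam ≠ 0 → c = 0)) ∧
    (∀ (S : Set (ℂ × Dir)) (C : ℝ), MeasurableSet S →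
      (∀ δ : ℝ, T.mu (((fun p : ℂ × Dir => (p.1, p.2 + (δ : Dir))) ⁻¹' S) ∆ S)
        ≤ ENNReal.ofReal (C * |δ|)) →
      (∀ t : ℝ, T.mu ((T.flow t ⁻¹' S) ∆ S) = 0) →
      (T.mu S = 0 ∨ T.mu S = 1)) ∧
    (∀ (S : Set (ℂ × Dir)) (C : ℝ), MeasurableSet S →
      (∀ δ : ℝ, 0 < δ → T.mu (Metric.cthickening δ (frontier S)) ≤ ENNReal.ofReal (C * δ)) →
      (∀ t : ℝ, T.mu ((T.flow t ⁻¹' S) ∆ S) = 0) →
      (T.mu S = 0 ∨ T.mu S = 1)) ∧
    (∀ (S : Set (ℂ × Dir)) (N : ℕ), MeasurableSet S →
      (∀ x ∈ T.table, ∃ a b : Fin N → ℝ,
        {θ : Dir | (x, θ) ∈ S} = ⋃ m, ((↑) : ℝ → Dir) '' Set.Icc (a m) (b m)) →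
      (∀ t : ℝ, T.mu ((T.flow t ⁻¹' S) ∆ S) = 0) →
      (T.mu S = 0 ∨ T.mu S = 1)) :=
  ⟨fun F lam C hFm hBV hinv => T.bv_eigen_measurable hT F hFm lam C hBV hinv,
   fun S C hS hBV hinv => T.bv_set hT S hS C hBV hinv,
   fun S C hS hM hinv => T.minkowski_set_trivial hT S hS C hM hinv,
   fun S N hS hslice hinv => T.arc_set_trivial hT S hS N hslice hinv⟩

end Vale.Agent.Results.P099.BoundedVariationEigenfunctions
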