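import Vale.Agent.Lib.P099.Right

/-!
# P099: billiards in irrational triangles

For every triangle each of whose angles is an irrational multiple of `π` or a right angle
(that is: every triangle with three irrational angles, and every right triangle whose
acute angles are irrational multiples of `π`), the billiard flow has no continuous
eigenfunction besides the constants: a function which is continuous on the phase space
and is an eigenfunction of the billiard flow (almost everywhere, for each time) is
constant when the frequency is zero and vanishes identically when the frequency is not
zero.
-/

namespace Vale.Agent.Results.P099.ContinuousEigenfunctionsRight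

open MeasureTheory Vale.Agent.Lib.P099

/-- Let `T` be a triangle each of whose angles is an irrational multiple of `π` or equal
to `π / 2`, with open table `Q = T.table`, billiard flow `Φ_t = T.flow t` and invariant
probability measure `μ = T.mu`.  Let `F` be a complex function, continuous on the phase
space `Q × ℝ/2πℤ`, such that `F ∘ Φ_t = exp (i lam t) F` holds `μ`-almost everywhere for
every real `t`.  Then: (1) if `lam = 0`, `F` is constant on the phase space; (2) if
`lam ≠ 0`, `F` vanishes on the whole phase space. -/
theorem result (T : Triangle)
    (hT : ∀ i : Fin 3, Irrational (T.interiorAngle i / Real.pi) ∨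
      T.interiorAngle i = Real.pi / 2)
    (F : ℂ × Dir → ℂ) (hFc : ContinuousOn F (T.table ×ˢ (Set.univ : Set Dir))) (lam : ℝ)
    (hinv : ∀ t : ℝ, (fun p => F (T.flow t p)) =ᵐ[T.mu]
      fun p => Complex.exp (lam * t * Complex.I) * F p) :
    (lam = 0 → ∃ c : ℂ, ∀ p ∈ T.table ×ˢ (Set.univ : Set Dir), F p = c) ∧
    (lam ≠ 0 → ∀ p ∈ T.table ×ˢ (Set.univ : Set Dir), F p = 0) :=
  Triangle.no_continuous_eigen_right hT hFc lam hinv

end Vale.Agent.Results.P099.ContinuousEigenfunctionsRight
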