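import Vale.Agent.Lib.P099.MainU
import Vale.Agent.Lib.P099.BVArcs
import Vale.Agent.Lib.P099.BVMinkowski
import Vale.Agent.Lib.P099.FinRank
import Vale.Agent.Lib.P099.Rect
import Vale.Agent.Lib.P099.Right

/-!
# P099: billiards in irrational triangles, four classes without eigenfunctions

One statement collecting four results on the billiard flow of an irrational triangle.
A measurable eigenfunction of the flow (for a real frequency, almost everywhere for each
time) is almost everywhere constant, and almost everywhere zero unless the frequency is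
zero, as soon as it is

* real-analytic in the position, for each direction, on a fixed open neighbourhood of the
  closed triangle; or
* of bounded variation in the direction (its mean variation under the rotation of all the
  directions by `δ` is at most `C |δ|`), with no regularity in the position; or
* a finite sum of products of a measurable function of the position and a measurable
  function of the direction.

Invariant sets of finite angular perimeter, invariant sets whose boundary has finite
Minkowski content, invariant sets whose slices of directions are unions of at most `N`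
arcs, invariant finite unions of measurable rectangles and invariant countable unions of
measurable rectangles with pairwise disjoint sets of directions have measure `0` or `1`.

Finally, for every triangle each of whose angles is an irrational multiple of `π` or a
right angle, a continuous eigenfunction is constant when the frequency is zero and
vanishes identically when it is not.
-/

namespace Vale.Agent.Results.P099.EigenfunctionOmnibus

open MeasureTheory Vale.Agent.Lib.P099
open scoped symmDiff

/-- Let `T` be a triangle with table `Q = T.table`, billiard flow `Φ_t = T.flow t` and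
invariant probability measure `μ = T.mu`.

**(A)** Suppose `T` is irrational (one of its angles is an irrational multiple of `π`).

(A1) Let `U` be an open set containing the closed triangle and `F` a measurable complex
function on the phase space which for every direction `θ` is real-analytic in the position
on `U`.  If `F ∘ Φ_t = exp (i lam t) F` almost everywhere for every real `t`, then `F` is
almost everywhere equal to a constant `c`, and `c = 0` unless `lam = 0`.

(A2) The same conclusion holds for a measurable `F` with
`∫ |F (x, θ + δ) - F (x, θ)| dμ ≤ C |δ|` for every real `δ`.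

(A3) A measurable set `S` with `μ ({(x, θ) | (x, θ + δ) ∈ S} ∆ S) ≤ C |δ|` for every real
`δ` and `μ (Φ_t⁻¹ S ∆ S) = 0` for every real `t` has measure `0` or `1`.

(A4) The same holds for a measurable set `S` such that the closed `δ`-neighbourhood of its
topological boundary has measure at most `C δ` for every `δ > 0`.

(A5) The same holds for a measurable set `S` such that, for every point `x` of the table,
the set of the directions `θ` with `(x, θ) ∈ S` is a union of at most `N` closed arcs.

(A6) The conclusion of (A1) holds for every finite sum `F (x, θ) = ∑ m, f m x * g m θ`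
with `f m` measurable functions of the position and `g m` measurable functions of the
direction.

(A7) An invariant finite union of measurable rectangles `A m × D m` has measure `0` or `1`.

(A8) The same holds for a countable union of measurable rectangles when the sets of
directions `D m` are pairwise disjoint.

**(B)** Suppose instead that each angle of `T` is an irrational multiple of `π` or equal
to `π / 2`, and let `F` be a complex function, continuous on the phase space
`Q × ℝ/2πℤ`, with `F ∘ Φ_t = exp (i lam t) F` almost everywhere for every real `t`.  Then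
`F` is constant on the phase space if `lam = 0`, and `F` vanishes on the whole phase space
if `lam ≠ 0`. -/
theorem result (T : Triangle) :
    (T.IsIrrational →
      (∀ (U : Set ℂ), IsOpen U → closure T.table ⊆ U →
        ∀ (F : ℂ × Dir → ℂ), Measurable F →
        (∀ θ : Dir, AnalyticOnNhd ℝ (fun x : ℂ => F (x, θ)) U) →
        ∀ lam : ℝ,
        (∀ t : ℝ, (fun p => F (T.flow t p)) =ᵐ[T.mu]
          fun p => Complex.exp (lam * t * Complex.I) * F p) →
        ∃ c : ℂ, (F =ᵐ[T.mu] fun _ => c) ∧ (lam ≠ 0 → c = 0)) ∧
      (∀ (F : ℂ × Dir → ℂ) (lam C : ℝ), Measurable F →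
        (∀ δ : ℝ, ∫⁻ p, ‖F (p.1, p.2 + (δ : Dir)) - F p‖ₑ ∂T.mu ≤ ENNReal.ofReal (C * |δ|)) →
        (∀ t : ℝ, (fun p => F (T.flow t p)) =ᵐ[T.mu]
          fun p => Complex.exp (lam * t * Complex.I) * F p) →
        ∃ c : ℂ, (F =ᵐ[T.mu] fun _ => c) ∧ (lam ≠ 0 → c = 0)) ∧
      (∀ (S : Set (ℂ × Dir)) (C : ℝ), MeasurableSet S →
        (∀ δ : ℝ, T.mu (((fun p : ℂ × Dir => (p.1, p.2 + (δ : Dir))) ⁻¹' S) ∆ S)
          ≤ ENNReal.ofReal (C * |δ|)) →
        (∀ t : ℝ, T.mu ((T.flow t ⁻¹' S) ∆ S) = 0) →
        (T.mu S = 0 ∨ T.mu S = 1)) ∧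
      (∀ (S : Set (ℂ × Dir)) (C : ℝ), MeasurableSet S →
        (∀ δ : ℝ, 0 < δ → T.mu (Metric.cthickening δ (frontier S)) ≤ ENNReal.ofReal (C * δ)) →
        (∀ t : ℝ, T.mu ((T.flow t ⁻¹' S) ∆ S) = 0) →
        (T.mu S = 0 ∨ T.mu S = 1)) ∧
      (∀ (S : Set (ℂ × Dir)) (N : ℕ), MeasurableSet S →
        (∀ x ∈ T.table, ∃ a b : Fin N → ℝ,
          {θ : Dir | (x, θ) ∈ S} = ⋃ m, ((↑) : ℝ → Dir) '' Set.Icc (a m) (b m)) →
        (∀ t : ℝ, T.mu ((T.flow t ⁻¹' S) ∆ S) = 0) →
        (T.mu S = 0 ∨ T.mu S = 1)) ∧
      (∀ (N : ℕ) (f : Fin N → ℂ → ℂ) (g : Fin N → Dir → ℂ) (lam : ℝ),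
        (∀ m, Measurable (f m)) → (∀ m, Measurable (g m)) →
        (∀ t : ℝ, (fun p => ∑ m, f m (T.flow t p).1 * g m (T.flow t p).2) =ᵐ[T.mu]
          fun p => Complex.exp (lam * t * Complex.I) * ∑ m, f m p.1 * g m p.2) →
        ∃ c : ℂ, ((fun p : ℂ × Dir => ∑ m, f m p.1 * g m p.2) =ᵐ[T.mu] fun _ => c) ∧
          (lam ≠ 0 → c = 0)) ∧
      (∀ (N : ℕ) (A : Fin N → Set ℂ) (D : Fin N → Set Dir),
        (∀ m, MeasurableSet (A m)) → (∀ m, MeasurableSet (D m)) →
        (∀ t : ℝ, T.mu ((T.flow t ⁻¹' (⋃ m, A m ×ˢ D m)) ∆ (⋃ m, A m ×ˢ D m)) = 0) →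
        (T.mu (⋃ m, A m ×ˢ D m) = 0 ∨ T.mu (⋃ m, A m ×ˢ D m) = 1)) ∧
      (∀ (A : ℕ → Set ℂ) (D : ℕ → Set Dir),
        (∀ m, MeasurableSet (A m)) → (∀ m, MeasurableSet (D m)) →
        Pairwise (fun m n => Disjoint (D m) (D n)) →
        (∀ t : ℝ, T.mu ((T.flow t ⁻¹' (⋃ m, A m ×ˢ D m)) ∆ (⋃ m, A m ×ˢ D m)) = 0) →
        (T.mu (⋃ m, A m ×ˢ D m) = 0 ∨ T.mu (⋃ m, A m ×ˢ D m) = 1))) ∧
    ((∀ i : Fin 3, Irrational (T.interiorAngle i / Real.pi) ∨
        T.interiorAngle i = Real.pi / 2) →
      ∀ (F : ℂ × Dir → ℂ), ContinuousOn F (T.table ×ˢ (Set.univ : Set Dir)) →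
      ∀ lam : ℝ,
      (∀ t : ℝ, (fun p => F (T.flow t p)) =ᵐ[T.mu]
        fun p => Complex.exp (lam * t * Complex.I) * F p) →
      (lam = 0 → ∃ c : ℂ, ∀ p ∈ T.table ×ˢ (Set.univ : Set Dir), F p = c) ∧
      (lam ≠ 0 → ∀ p ∈ T.table ×ˢ (Set.univ : Set Dir), F p = 0)) :=
  ⟨fun hT =>
    ⟨fun U hU hTU F hFm hFa lam hinv => T.eigenfunction_const_nhd hT U hU hTU F hFm hFa lam hinv,
     fun F lam C hFm hBV hinv => T.bv_eigen_measurable hT F hFm lam C hBV hinv,
     fun S C hS hBV hinv => T.bv_set hT S hS C hBV hinv,
     fun S C hS hM hinv => T.minkowski_set_trivial hT S hS C hM hinv,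
     fun S N hS hslice hinv => T.arc_set_trivial hT S hS N hslice hinv,
     fun _ f g lam hf hg hinv => T.finite_rank_eigen hT f g hf hg lam hinv,
     fun _ A D hA hD hinv => Triangle.rect_union_trivial hT A D hA hD hinv,
     fun A D hA hD hdisj hinv => Triangle.disjoint_rect_union_trivial hT A D hA hD hdisj hinv⟩,
   fun hT _ hFc lam hinv => Triangle.no_continuous_eigen_right hT hFc lam hinv⟩

end Vale.Agent.Results.P099.EigenfunctionOmnibus
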