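import Vale.Agent.Lib.P099.FinRank
import Vale.Agent.Lib.P099.Rect

/-!
# P099: billiards in irrational triangles, eigenfunctions of finite rank

For every irrational triangle, a measurable eigenfunction of the billiard flow of the form
`F (x, θ) = ∑ m, f m x * g m θ` (a finite sum of products of a measurable function of the
position and a measurable function of the direction) is almost everywhere constant, and it
is almost everywhere zero unless the frequency is zero.  No continuity is assumed.  Such
finite sums are dense in the space of square integrable functions on the phase space.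

As consequences, invariant finite unions of measurable rectangles, and invariant countable
unions of measurable rectangles with pairwise disjoint sets of directions, have measure
`0` or `1`.
-/

namespace Vale.Agent.Results.P099.FiniteRankEigenfunctions

open MeasureTheory Vale.Agent.Lib.P099
open scoped symmDiff

/-- Let `T` be an irrational triangle with table `Q = T.table`, billiard flow
`Φ_t = T.flow t` and invariant probability measure `μ = T.mu`.

(1) Let `F (x, θ) = ∑ m, f m x * g m θ` be a finite sum with `f m` measurable functions of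
the position and `g m` measurable functions of the direction, and let `lam` be real.  If
for every real `t` the equality `F (Φ_t p) = exp (i lam t) * F p` holds for almost every
`p`, then `F` is almost everywhere equal to a constant `c`, and `c = 0` unless `lam = 0`.

(2) Let `S` be a finite union of rectangles `A m × D m`, where the `A m` are measurable
sets of positions and the `D m` are measurable sets of directions.  If
`μ (Φ_t⁻¹ S ∆ S) = 0` for every real `t`, then `μ S` is `0` or `1`.

(3) The same holds for a countable union of such rectangles when the sets of directions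
`D m` are pairwise disjoint. -/
theorem result (T : Triangle) (hT : T.IsIrrational) :
    (∀ (N : ℕ) (f : Fin N → ℂ → ℂ) (g : Fin N → Dir → ℂ) (lam : ℝ),
      (∀ m, Measurable (f m)) → (∀ m, Measurable (g m)) →
      (∀ t : ℝ, (fun p => ∑ m, f m (T.flow t p).1 * g m (T.flow t p).2) =ᵐ[T.mu]
        fun p => Complex.exp (lam * t * Complex.I) * ∑ m, f m p.1 * g m p.2) →
      ∃ c : ℂ, ((fun p : ℂ × Dir => ∑ m, f m p.1 * g m p.2) =ᵐ[T.mu] fun _ => c) ∧
        (lam ≠ 0 → c = 0)) ∧
    (∀ (N : ℕ) (A : Fin N → Set ℂ) (D : Fin N → Set Dir),
      (∀ m, MeasurableSet (A m)) → (∀ m, MeasurableSet (D m)) →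
      (∀ t : ℝ, T.mu ((T.flow t ⁻¹' (⋃ m, A m ×ˢ D m)) ∆ (⋃ m, A m ×ˢ D m)) = 0) →
      (T.mu (⋃ m, A m ×ˢ D m) = 0 ∨ T.mu (⋃ m, A m ×ˢ D m) = 1)) ∧
    (∀ (A : ℕ → Set ℂ) (D : ℕ → Set Dir),
      (∀ m, MeasurableSet (A m)) → (∀ m, MeasurableSet (D m)) →
      Pairwise (fun m n => Disjoint (D m) (D n)) →
      (∀ t : ℝ, T.mu ((T.flow t ⁻¹' (⋃ m, A m ×ˢ D m)) ∆ (⋃ m, A m ×ˢ D m)) = 0) →
      (T.mu (⋃ m, A m ×ˢ D m) = 0 ∨ T.mu (⋃ m, A m ×ˢ D m) = 1)) :=
  ⟨fun _ f g lam hf hg hinv => T.finite_rank_eigen hT f g hf hg lam hinv,
   fun _ A D hA hD hinv => Triangle.rect_union_trivial hT A D hA hD hinv,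
   fun A D hA hD hdisj hinv => Triangle.disjoint_rect_union_trivial hT A D hA hD hdisj hinv⟩

end Vale.Agent.Results.P099.FiniteRankEigenfunctions
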